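import Vale.Agent.P284Z.Spec

/-!
# P284Z, block H: the holonomy groupoid; statements of the steps

See notes/P284_H_helper69.md.
-/

open scoped Topology
open Filter Set Metric MeasureTheory

noncomputable section

namespace Vale.Agent.P284Z.H

open Vale.Agent.P272.K

/-- An equicontinuous holonomy groupoid: `h i k γ` is defined on the part `D i k γ` of the
transversal `k` and has its values in the transversal `i`. -/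
structure HG (Γ : Type) [Group Γ] (q : ℕ) (ι : Type) where
  R : ι → ℝ
  D : ι → ι → Γ → Set (Cm q)
  h : ι → ι → Γ → Cm q → Cm q
  sub : ∀ i k γ, ∀ u ∈ D i k γ, ‖u‖ < R k ∧ ‖h i k γ u‖ < R i
  an : ∀ i k γ, ∀ u ∈ D i k γ, AnalyticAt ℂ (h i k γ) u
  one : ∀ i u, ‖u‖ < R i → u ∈ D i i 1 ∧ h i i 1 u = u
  mul : ∀ i k m γ γ', ∀ u ∈ D k m γ', h k m γ' u ∈ D i k γ →
    u ∈ D i m (γ * γ') ∧ h i m (γ * γ') u = h i k γ (h k m γ' u)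
  inv : ∀ i k γ, ∀ u ∈ D i k γ, h i k γ u ∈ D k i γ⁻¹
  eq : ∀ i k, ∀ r < R i, ∀ r' < R k, ∀ ε > (0 : ℝ), ∃ δ > (0 : ℝ), ∀ γ, ∀ u ∈ D i k γ,
    ‖u‖ ≤ r' → ‖h i k γ u‖ ≤ r → ∀ u' ∈ ball u δ, u' ∈ D i k γ ∧ ‖h i k γ u' - h i k γ u‖ < ε
  link : ∀ P : ι → Prop, (∀ i k, (D i k 1).Nonempty → P k → P i) → ∀ i k, P k → P i
  tr : ∀ a i, ∃ k, (D i k a).Nonempty

namespace HG

variable {Γ : Type} [Group Γ] {q : ℕ} {ι : Type} (G : HG Γ q ι)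

/-- the size of the 1-jet of `γ` at the point `u` of the transversal `i` -/
def js (i : ι) (γ : Γ) (u : Cm q) : ℝ :=
  max ‖G.h i i γ u - u‖ ‖fderiv ℂ (G.h i i γ) u - ContinuousLinearMap.id ℂ (Cm q)‖

/-- recurrence -/
def Rec : Prop := ∃ i k, ∃ r < G.R i, ∃ r' < G.R k,
  {γ | ∃ u ∈ G.D i k γ, ‖u‖ ≤ r' ∧ ‖G.h i k γ u‖ ≤ r}.Infinite

end HG

/-- KEY: the key estimate, uniformly in the base point -/
def StKey : Prop :=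
  ∀ (Γ : Type) [Group Γ] (q : ℕ) (ι : Type) (G : HG Γ q ι) (i : ι), ∀ r < G.R i,
    ∃ δ > (0 : ℝ), ∃ ε > (0 : ℝ), ∃ K : ℝ, ∀ γ, ∀ u ∈ G.D i i γ, ‖u‖ ≤ r → G.js i γ u < ε →
      ∀ u' ∈ ball u δ, u' ∈ G.D i i γ ∧ ‖G.h i i γ u' - u'‖ ≤ K * G.js i γ u

/-- CJ: conjugation, and small elements -/
def StCj : Prop :=
  ∀ (Γ : Type) [Group Γ] (q : ℕ) (ι : Type) (G : HG Γ q ι) (i : ι) (t : Cm q), ‖t‖ < G.R i →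
    (∀ a : Γ, ∃ ε > (0 : ℝ), ∃ K : ℝ, ∀ γ, t ∈ G.D i i γ → G.js i γ t < ε →
      t ∈ G.D i i (a * γ * a⁻¹) ∧ G.js i (a * γ * a⁻¹) t ≤ K * G.js i γ t) ∧
    (G.Rec → ∀ ε > (0 : ℝ), ∃ γ, γ ≠ 1 ∧ t ∈ G.D i i γ ∧ G.js i γ t < ε)

/-- LSA: the local structure from the groupoid -/
def StLs : Prop :=
  ∀ (Γ : Type) [Group Γ] (q : ℕ) (ι : Type) (G : HG Γ q ι) (i : ι) (t : Cm q), ‖t‖ < G.R i →
    G.Rec → ∀ m : ℕ → Γ → ℝ, (∀ j g, 0 ≤ m j g) → (∀ j, HasSum (m j) 1) →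
    (∀ η > (0 : ℝ), ∃ ε > (0 : ℝ), ∀ g, t ∈ G.D i i g → ‖G.h i i g t - t‖ < ε →
      ∀ᶠ j in atTop, ∑' k, |m j (g⁻¹ * k) - m j k| ≤ η) → Nonempty (LS Γ)

/-- GRAPH: a single valued analytic set whose projection has interior points is a graph -/
def StGraph : Prop :=
  ∀ (a e : ℕ) (U : Set (Cm a × Cm e)) (S : Set (Cm a × Cm e → ℂ)) (W : Set (Cm a × Cm e))
    (x : Cm a × Cm e), IsOpen U → (∀ f ∈ S, AnalyticOnNhd ℂ f U) →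
    (∀ y, y ∈ W ↔ y ∈ U ∧ ∀ f ∈ S, f y = 0) → x ∈ W →
    (∀ w t t', (w, t) ∈ W → (w, t') ∈ W → t = t') →
    (∀ V ∈ 𝓝 x, (interior (Prod.fst '' (W ∩ V))).Nonempty) →
    ∃ h : Cm a → Cm e, AnalyticAt ℂ h x.1 ∧ h x.1 = x.2 ∧ ∀ᶠ w in 𝓝 x.1, (w, h w) ∈ W

variable {n : ℕ} {Γ E : Type} [Group Γ] [TopologicalSpace E] [MulAction Γ E] {C : Cov n Γ E}
  {D : LD C} {L : Lim D} {Z : ZD L}

/-- the plaque `t` of `N` is related to the translate by `γ` of the plaque `u` of `N'` -/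
def PR {d q l : ℕ} (N N' : NC Z d q l) (γ : Γ) (t u : Cm q) : Prop :=
  ‖t‖ < N.R ∧ ‖u‖ < N'.R ∧ ∀ b a : Cm d, ‖b‖ < N.R → ‖a‖ < N'.R →
    (N.Ψ.symm (b, t), γ • N'.Ψ.symm (a, u)) ∈ Z.all

/-- the plaques are related by a germ of biholomorphic map -/
def HR {d q l : ℕ} (N N' : NC Z d q l) (γ : Γ) (t u : Cm q) : Prop :=
  (∃ h : Cm q → Cm q, AnalyticAt ℂ h u ∧ h u = t ∧ ∀ᶠ u' in 𝓝 u, PR N N' γ (h u') u') ∧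
  (∃ g : Cm q → Cm q, AnalyticAt ℂ g t ∧ g t = u ∧ ∀ᶠ t' in 𝓝 t, PR N N' γ t' (g t'))

/-- the nice charts -/
def Ch (Φ : FD Z) : Type := {N : NC Z Φ.d Φ.q Φ.l₁ // N.Ψ.source ⊆ Φ.En}

/-- EQ: equicontinuity of the relation between plaques -/
def StEq : Prop :=
  ∀ (n : ℕ) (Γ E : Type) [Group Γ] [Countable Γ] [TopologicalSpace E] [T2Space E]
    [ConnectedSpace E] [MulAction Γ E] (C : Cov n Γ E) (D : LD C) (L : Lim D) (Z : ZD L),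
    Z.SB → ∀ (Φ : FD Z) (N N' : Ch Φ), ∀ r < N.1.R, ∀ r' < N'.1.R, ∀ ε > (0 : ℝ),
    ∃ δ > (0 : ℝ), ∀ (γ : Γ) (t₁ t₂ u₁ u₂ : Cm Φ.q), ‖t₁‖ ≤ r → ‖t₂‖ ≤ r → ‖u₁‖ ≤ r' →
      ‖u₂‖ ≤ r' → ‖u₁ - u₂‖ < δ → PR N.1 N'.1 γ t₁ u₁ → PR N.1 N'.1 γ t₂ u₂ → ‖t₁ - t₂‖ < ε

/-- AE: almost every point of a nice chart is good -/
def StAe : Prop :=
  ∀ (n : ℕ) (Γ E : Type) [Group Γ] [Countable Γ] [TopologicalSpace E] [T2Space E]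
    [ConnectedSpace E] [MulAction Γ E] (C : Cov n Γ E) (D : LD C) (L : Lim D) (Z : ZD L)
    (d q l : ℕ), d + q = n → ∀ N : NC Z d q l, ∀ᵐ v : Cm d × Cm q, v ∈ ball 0 N.R →
      0 < L.F (N.Ψ.symm v) ∧ Tendsto (fun j => D.F j (N.Ψ.symm v)) atTop (𝓝 (L.F (N.Ψ.symm v)))

/-- the groupoid of the foliation -/
structure FG (Φ : FD Z) where
  G : HG Γ Φ.q (Ch Φ)
  R_eq : ∀ N, G.R N = N.1.R
  pr : ∀ N N' γ, ∀ u ∈ G.D N N' γ, PR N.1 N'.1 γ (G.h N N' γ u) u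
  ov : ∀ (N N' : Ch Φ) (γ : Γ), ∀ y ∈ N'.1.Ψ.source, γ • y ∈ N.1.Ψ.source →
    (N'.1.Ψ y).2 ∈ G.D N N' γ ∧ G.h N N' γ (N'.1.Ψ y).2 = (N.1.Ψ (γ • y)).2

/-- GRP: the groupoid exists -/
def StGrp : Prop :=
  ∀ (n : ℕ) (Γ E : Type) [Group Γ] [Countable Γ] [TopologicalSpace E] [T2Space E]
    [ConnectedSpace E] [MulAction Γ E] (C : Cov n Γ E) (D : LD C) (L : Lim D) (Z : ZD L),
    Z.SB → Z.TR → ∀ Φ : FD Z, Nonempty (FG Φ)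

/-- REI: the almost invariant measures -/
def StRei : Prop :=
  ∀ (n : ℕ) (Γ E : Type) [Group Γ] [Countable Γ] [TopologicalSpace E] [T2Space E]
    [ConnectedSpace E] [MulAction Γ E] (C : Cov n Γ E) (D : LD C) (L : Lim D) (Z : ZD L)
    (d q l : ℕ) (N : NC Z d q l) (a : Cm d) (t : Cm q), (a, t) ∈ ball (0 : Cm d × Cm q) N.R →
    0 < L.F (N.Ψ.symm (a, t)) →
    Tendsto (fun j => D.F j (N.Ψ.symm (a, t))) atTop (𝓝 (L.F (N.Ψ.symm (a, t)))) →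
    ∃ m : ℕ → Γ → ℝ, (∀ j g, 0 ≤ m j g) ∧ (∀ j, HasSum (m j) 1) ∧
      ∀ η > (0 : ℝ), ∃ ε > (0 : ℝ), ∀ (g : Γ) (t' : Cm q), PR N N g t' t → ‖t' - t‖ < ε →
        ∀ᶠ j in atTop, ∑' k, |m j (g⁻¹ * k) - m j k| ≤ η

end Vale.Agent.P284Z.H
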