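import Vale.Agent.P284Z.H.Ls

/-!
# P284Z, block H: comparison of base points, conjugation, small elements
-/

open scoped Topology
open Filter Set Metric

noncomputable section

namespace Vale.Agent.P284Z.H

open Vale.Agent.P272.K

namespace HG

variable {Γ : Type} [Group Γ] {q : ℕ} {ι : Type} (G : HG Γ q ι)

/-- if `γ` is small at `w` then `φ γ` is small at `w'` -/
def Cmp (φ : Γ → Γ) (k : ι) (w : Cm q) (k' : ι) (w' : Cm q) : Prop :=
  ∃ ε > (0 : ℝ), ∃ K > (0 : ℝ), ∀ γ, w ∈ G.D k k γ → G.js k γ w < ε →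
    w' ∈ G.D k' k' (φ γ) ∧ G.js k' (φ γ) w' ≤ K * G.js k γ w

variable {G} {i k k' k'' : ι} {u w w' w'' : Cm q} {φ ψ : Γ → Γ} {γ a : Γ}

theorem Cmp.trans (h : G.Cmp φ k w k' w') (h' : G.Cmp ψ k' w' k'' w'') :
    G.Cmp (ψ ∘ φ) k w k'' w'' := by
  obtain ⟨ε, ε0, K, K0, h⟩ := h
  obtain ⟨ε', ε1, K', K1, h'⟩ := h'
  refine ⟨min ε (ε' / K), by positivity, K' * K, by positivity, fun γ h1 h2 => ?_⟩
  rw [lt_min_iff, lt_div_iff₀' K0] at h2
  obtain ⟨h3, h4⟩ := h γ h1 h2.1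
  obtain ⟨h5, h6⟩ := h' _ h3 (h4.trans_lt h2.2)
  exact ⟨h5, h6.trans ((mul_le_mul_of_nonneg_left h4 K1.le).trans_eq (mul_assoc _ _ _).symm)⟩

theorem js_le {d M : ℝ} (hd : 0 < d)
    (h : ∀ y ∈ ball u d, y ∈ G.D i i γ ∧ ‖G.h i i γ y - y‖ ≤ M) :
    G.js i γ u ≤ (1 + 4 / d) * M := by
  have h0 := h u (mem_ball_self hd)
  have h1 := (cauchy (f := fun y => G.h i i γ y - y) (p := 0) (M := M)
    (fun y hy => (G.an _ _ _ _ (h y hy).1).sub analyticAt_id)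
    (fun y hy => by simpa only [sub_zero] using (h y hy).2) u (mem_ball_self (half_pos hd))).2.1
  have h5 : fderiv ℂ (fun y => G.h i i γ y - y) u =
      fderiv ℂ (G.h i i γ) u - ContinuousLinearMap.id ℂ (Cm q) :=
    ((G.an _ _ _ _ h0.1).differentiableAt.hasFDerivAt.sub (hasFDerivAt_id u)).fderiv
  rw [h5] at h1
  have h2 : 0 ≤ M := (norm_nonneg _).trans h0.2
  have h3 : 0 ≤ 4 * M / d := by positivity
  have h4 : (1 + 4 / d) * M = M + 4 * M / d := by ring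
  exact max_le (by linarith [h0.2]) (by linarith)

theorem cmp_near (hK : StKey) (k : ι) {r : ℝ} (hr : r < G.R k) : ∃ δ > (0 : ℝ), ∀ w, ‖w‖ ≤ r →
    ∀ x ∈ ball w δ, G.Cmp id k w k x := by
  obtain ⟨δ, δ0, ε, ε0, c, c0, h⟩ := key2 hK G k hr
  exact ⟨δ, δ0, fun w hw x hx => ⟨ε, ε0, c, c0, fun γ h1 h2 =>
    ⟨(h γ w h1 hw h2 x hx).1, (h γ w h1 hw h2 x hx).2.1⟩⟩⟩

theorem cmp_chart (hK : StKey) (hw : ‖w‖ < G.R k) (hw' : ‖w'‖ < G.R k) : G.Cmp id k w k w' := by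
  refine (convex_ball (0 : Cm q) (G.R k)).isPreconnected.subset_of_closure_inter_subset
    (u := {x | ‖x‖ < G.R k ∧ G.Cmp id k w k x}) (isOpen_iff_eventually.2 fun x hx => ?_)
    ⟨w, mem_ball_zero_iff.2 hw, hw, 1, one_pos, 1, one_pos, fun γ h _ => ⟨h, (one_mul _).ge⟩⟩
    (fun x hx => ?_) (mem_ball_zero_iff.2 hw') |>.2
  · obtain ⟨δ, δ0, h⟩ := cmp_near hK k hx.1
    filter_upwards [ball_mem_nhds x δ0, continuousAt_id.norm.eventually_lt continuousAt_const hx.1]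
      with y h1 h2
    exact ⟨h2, hx.2.trans (h x le_rfl y h1)⟩
  · have h0 := mem_ball_zero_iff.1 hx.2
    obtain ⟨r, h1, h2⟩ := exists_between h0
    obtain ⟨δ, δ0, h⟩ := cmp_near hK k h2
    obtain ⟨y, h3, h4, h5⟩ := ((mem_closure_iff_frequently.1 hx.1).and_eventually
      ((show ∀ᶠ y in 𝓝 x, y ∈ ball x δ from ball_mem_nhds x δ0).and
        (continuousAt_id.norm.eventually_lt continuousAt_const h1))).exists
    exact ⟨h0, h3.2.trans (h y h5.le x (mem_ball_comm.1 h4))⟩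

theorem cmp_conj (hK : StKey) (hw : w ∈ G.D k' k a) :
    G.Cmp (fun γ => a * γ * a⁻¹) k w k' (G.h k' k a w) := by
  obtain ⟨δ, δ0, ε, ε0, c, c0, h⟩ := key2 hK G k (G.sub _ _ _ _ hw).1
  obtain ⟨d, d0, c', c1, h'⟩ := G.reg k' k (G.sub _ _ _ _ hw).2 (G.sub _ _ _ _ hw).1
  have h1 := h' a w hw le_rfl le_rfl
  have h2 := G.inv _ _ _ _ hw
  obtain ⟨e, e0, h3⟩ := Metric.eventually_nhds_iff_ball.1 ((G.ev h2).and
    ((G.an _ _ _ _ h2).continuousAt.eventually_mem (s := ball w (min δ (d / 2)))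
      (by rw [G.inv_h hw]; exact ball_mem_nhds _ (by positivity))))
  refine ⟨min ε (d / 2 / c), by positivity, (1 + 4 / e) * (c' * c), by positivity,
    fun γ b1 b2 => ?_⟩
  rw [lt_min_iff, lt_div_iff₀' c0] at b2
  have b3 : ∀ y ∈ ball (G.h k' k a w) e, y ∈ G.D k' k' (a * γ * a⁻¹) ∧
      ‖G.h k' k' (a * γ * a⁻¹) y - y‖ ≤ c' * (c * G.js k γ w) := by
    intro y hy
    obtain ⟨b4, b5⟩ := h3 y hy
    obtain ⟨b6, b7, -⟩ := h γ w b1 le_rfl b2.1 _ (ball_subset_ball (min_le_left _ _) b5)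
    have b8 := G.inv_h b4
    rw [inv_inv] at b8
    obtain ⟨b9, c2⟩ := G.mul k k k' γ a⁻¹ y b4 b6
    generalize G.h k k' a⁻¹ y = x at b5 b6 b7 b8 c2
    have c3 : ‖G.h k k γ x - x‖ ≤ c * G.js k γ w := (le_max_left _ _).trans b7
    have c4 : ‖x - w‖ < d / 2 := (mem_ball_iff_norm.1 b5).trans_le (min_le_right _ _)
    have c5 : G.h k k γ x ∈ ball w d := mem_ball_iff_norm.2 (by
      linarith [norm_sub_le_norm_sub_add_norm_sub (G.h k k γ x) x w, b2.2])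
    obtain ⟨c6, c7⟩ := G.mul k' k k' a _ y b9 (c2 ▸ (h1 _ c5).1)
    rw [mul_assoc, c7, c2]
    refine ⟨c6, ?_⟩
    have c8 := (convex_ball w d).norm_image_sub_le_of_norm_fderiv_le
      (fun z hz => (G.an _ _ _ _ (h1 z hz).1).differentiableAt) (fun z hz => (h1 z hz).2.2.1)
      (mem_ball_iff_norm.2 (c4.trans (half_lt_self d0))) c5
    rw [b8] at c8
    exact c8.trans (mul_le_mul_of_nonneg_left c3 c1.le)
  exact ⟨(b3 _ (mem_ball_self e0)).1, (js_le e0 b3).trans_eq (by ring)⟩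

theorem cmp_all (hK : StKey) (hw : ‖w‖ < G.R k) (hw' : ‖w'‖ < G.R k') : G.Cmp id k w k' w' := by
  refine G.link (fun k' => ∀ w', ‖w'‖ < G.R k' → G.Cmp id k w k' w') ?_ k' k
    (fun _ h => cmp_chart hK hw h) w' hw'
  rintro i m ⟨x, hx⟩ h y hy
  have h1 := cmp_conj hK hx
  simp only [one_mul, inv_one, mul_one] at h1
  exact ((h x (G.sub _ _ _ _ hx).1).trans h1).trans (cmp_chart hK (G.sub _ _ _ _ hx).2 hy)

/-- the jet of a quotient -/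
theorem js_div {γ' : Γ} {c : ℝ} (h : u ∈ G.D i k γ) (h' : u ∈ G.D i k γ')
    (hc : ‖fderiv ℂ (G.h k i γ⁻¹) (G.h i k γ u)‖ ≤ c) :
    G.h i k γ u ∈ G.D i i (γ' * γ⁻¹) ∧ G.js i (γ' * γ⁻¹) (G.h i k γ u) ≤ (1 + c) *
      ‖(G.h i k γ' u, fderiv ℂ (G.h i k γ') u) - (G.h i k γ u, fderiv ℂ (G.h i k γ) u)‖ := by
  have a1 := G.inv _ _ _ _ h
  have a2 := G.mul i k i γ' γ⁻¹ _ a1 (by rwa [G.inv_h h])
  have a3 := G.fderiv_mul (γ := γ') (i := i) a1 (by rwa [G.inv_h h])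
  have a4 := G.fderiv_mul (γ := γ) (i := i) a1 (by rwa [G.inv_h h])
  rw [mul_inv_cancel, G.fderiv_one (G.sub _ _ _ _ h).2] at a4
  rw [G.inv_h h] at a2 a3 a4
  have a5 := norm_fst_le
    ((G.h i k γ' u, fderiv ℂ (G.h i k γ') u) - (G.h i k γ u, fderiv ℂ (G.h i k γ) u))
  have a6 := norm_snd_le
    ((G.h i k γ' u, fderiv ℂ (G.h i k γ') u) - (G.h i k γ u, fderiv ℂ (G.h i k γ) u))
  have a7 := mul_nonneg ((norm_nonneg _).trans hc) ((norm_nonneg _).trans a5)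
  refine ⟨a2.1, max_le ?_ ?_⟩
  · rw [a2.2]
    exact a5.trans (by linarith)
  · rw [a3, a4, ← ContinuousLinearMap.sub_comp]
    refine (ContinuousLinearMap.opNorm_comp_le _ _).trans
      ((mul_le_mul a6 hc (norm_nonneg _) (norm_nonneg _)).trans ?_)
    linarith [(norm_nonneg _).trans a5]

end HG

open HG in
theorem cj (hK : StKey) : StCj := by
  intro Γ _ q ι G i t ht
  refine ⟨fun a => ?_, ?_⟩
  · obtain ⟨k, w, hw⟩ := G.tr a i
    obtain ⟨ε, ε0, K, -, h⟩ := ((cmp_all hK ht (G.sub _ _ _ _ hw).1).trans (cmp_conj hK hw)).trans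
      (cmp_chart hK (G.sub _ _ _ _ hw).2 ht)
    exact ⟨ε, ε0, K, h⟩
  rintro ⟨i', k, r, hr, r', hr', hI⟩ ε ε0
  obtain ⟨s, s1, s2⟩ := exists_between hr
  obtain ⟨δ, δ0, h1⟩ := G.eq i' k r hr r' hr' (s - r) (by linarith)
  obtain ⟨T, T1, T2, T3⟩ := finite_cover_balls_of_compact (isCompact_closedBall (0 : Cm q) r') δ0
  obtain ⟨u, hu, h2⟩ : ∃ u ∈ T, {γ | u ∈ G.D i' k γ ∧ ‖G.h i' k γ u‖ ≤ s}.Infinite := by
    by_contra hn
    refine hI ((T2.biUnion fun u hu => not_infinite.1 fun h => hn ⟨u, hu, h⟩).subset ?_)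
    rintro γ ⟨x, x1, x2, x3⟩
    obtain ⟨u, u1, u2⟩ := mem_iUnion₂.1 (T3 (mem_closedBall_zero_iff.2 x2))
    obtain ⟨u3, u4⟩ := h1 γ x x1 x2 x3 u (mem_ball_comm.1 u2)
    exact mem_biUnion u1 ⟨u3, by linarith [norm_le_norm_sub_add (G.h i' k γ u) (G.h i' k γ x)]⟩
  have hu : ‖u‖ ≤ r' := mem_closedBall_zero_iff.1 (T1 hu)
  obtain ⟨d, d0, c, c0, h3⟩ := G.reg i' k s2 hr'
  obtain ⟨d', d1, c', c1, h4⟩ := G.reg k i' hr' s2
  obtain ⟨e, e0, η, η0, b, b0, h5⟩ := key2 hK G i' s2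
  let g := h2.natEmbedding
  have : ProperSpace (Cm q →L[ℂ] Cm q) := FiniteDimensional.proper ℂ _
  obtain ⟨x, x1, φ, φ1, φ2⟩ := ((isCompact_closedBall (0 : Cm q) s).prod
    (isCompact_closedBall (0 : Cm q →L[ℂ] Cm q) c)).tendsto_subseq
    (x := fun m => (G.h i' k (g m) u, fderiv ℂ (G.h i' k (g m)) u)) fun m =>
      ⟨mem_closedBall_zero_iff.2 (g m).2.2, mem_closedBall_zero_iff.2
        (h3 _ u (g m).2.1 hu (g m).2.2 u (mem_ball_self d0)).2.2.1⟩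
  obtain ⟨η', η1, K, K0, h6⟩ := cmp_all hK ((mem_closedBall_zero_iff.1 x1.1).trans_lt s2) ht
  have φ3 := (((φ2.comp (tendsto_add_atTop_nat 1)).sub φ2).norm).const_mul (1 + c')
  rw [sub_self, norm_zero, mul_zero] at φ3
  obtain ⟨m, m1, m2, m3, m4⟩ := ((φ3.eventually_lt_const η0).and
    (((φ3.const_mul b).eventually_lt_const (by simpa using η1)).and
    ((((φ3.const_mul b).const_mul K).eventually_lt_const (by simpa using ε0)).and
    (φ2.fst_nhds.eventually (ball_mem_nhds _ e0))))).exists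
  obtain ⟨a1, a2⟩ := js_div (g (φ m)).2.1 (g (φ (m + 1))).2.1
    (h4 _ _ (G.inv _ _ _ _ (g (φ m)).2.1) (g (φ m)).2.2 (by rwa [G.inv_h (g (φ m)).2.1]) _
      (mem_ball_self d1)).2.2.1
  obtain ⟨a3, a4, -⟩ := h5 _ _ a1 (g (φ m)).2.2 (a2.trans_lt m1) x.1 (mem_ball_comm.1 m4)
  have a5 := a4.trans (mul_le_mul_of_nonneg_left a2 b0.le)
  obtain ⟨a6, a7⟩ := h6 _ a3 (a5.trans_lt m2)
  exact ⟨_, fun h => (φ1 m.lt_succ_self).ne' (g.injective (Subtype.ext (mul_inv_eq_one.1 h))), a6,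
    (a7.trans (mul_le_mul_of_nonneg_left a5 K0.le)).trans_lt m3⟩

end Vale.Agent.P284Z.H
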