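import Mathlib
import Vale.Agent.P284Z.H.Defs

/-!
# P284Z, block H: Cauchy estimates and the key estimate for an equicontinuous groupoid
-/

open scoped Topology
open Filter Set Metric

noncomputable section

namespace Vale.Agent.P284Z.H

open Vale.Agent.P272.K

/-- Cauchy estimates -/
theorem cauchy {V W : Type} [NormedAddCommGroup V] [NormedSpace ℂ V] [NormedAddCommGroup W]
    [NormedSpace ℂ W] [CompleteSpace W] {f : V → W} {c : V} {p : W} {d M : ℝ}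
    (hf : AnalyticOnNhd ℂ f (ball c d)) (hM : ∀ x ∈ ball c d, ‖f x - p‖ ≤ M) :
    ∀ x ∈ ball c (d / 2), ‖f x - f c‖ ≤ 2 * M / d * ‖x - c‖ ∧ ‖fderiv ℂ f x‖ ≤ 4 * M / d ∧
      ‖fderiv ℂ f x - fderiv ℂ f c‖ ≤ 16 * M / d ^ 2 * ‖x - c‖ := by
  intro x hx
  have hd : 0 < d / 2 := pos_of_mem_ball hx
  have hs : ∀ y ∈ ball c (d / 2), ball y (d / 2) ⊆ ball c d := fun y hy =>
    ball_subset_ball' (by linarith [mem_ball.1 hy])
  have h0 : ∀ y ∈ ball c d, ∀ z ∈ ball c d, f z ∈ closedBall (f y) (2 * M) := fun y hy z hz => by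
    rw [mem_closedBall_iff_norm]
    linarith [norm_sub_le_norm_sub_add_norm_sub (f z) p (f y), norm_sub_rev p (f y), hM y hy,
      hM z hz]
  have h1 : ∀ y ∈ ball c (d / 2), ‖fderiv ℂ f y‖ ≤ 4 * M / d := fun y hy =>
    (Complex.norm_fderiv_le_div_of_mapsTo_ball (hf.differentiableOn.mono (hs y hy))
      (fun z hz => h0 y (hs y hy (mem_ball_self hd)) z (hs y hy hz)) hd).trans_eq (by field_simp; ring)
  refine ⟨?_, h1 x hx, ?_⟩
  · simpa only [dist_eq_norm] using Complex.dist_le_div_mul_dist_of_mapsTo_ball hf.differentiableOn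
      (h0 c (mem_ball_self (by linarith))) (ball_subset_ball (by linarith) hx)
  · have := Complex.dist_le_div_mul_dist_of_mapsTo_ball (R₂ := 8 * M / d)
      (hf.fderiv.differentiableOn.mono (hs c (mem_ball_self hd))) (fun y hy => by
        rw [mem_closedBall_iff_norm]
        refine (norm_sub_le _ _).trans ((add_le_add (h1 y hy) (h1 c (mem_ball_self hd))).trans_eq ?_)
        ring) hx
    rw [dist_eq_norm, dist_eq_norm] at this
    exact this.trans_eq (by field_simp; ring)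

theorem le_of_nat {j η w M : ℝ} (h : ∀ a : ℕ, a * j ≤ η → a * w ≤ M) (hj : 0 ≤ j) (hη : 0 < η)
    (hjη : j ≤ η) (hw : 0 ≤ w) : w ≤ 2 * M / η * j := by
  rcases hj.eq_or_lt with rfl | hj
  · rw [mul_zero]
    by_contra hn
    obtain ⟨a, ha⟩ := exists_nat_gt (M / w)
    rw [div_lt_iff₀ (not_le.1 hn)] at ha
    exact ha.not_ge (h a (by linarith))
  · have h1 : (⌊η / j⌋₊ : ℝ) * j ≤ η := (le_div_iff₀ hj).1 (Nat.floor_le (by positivity))
    have h2 : η < (⌊η / j⌋₊ + 1) * j := (div_lt_iff₀ hj).1 (Nat.lt_floor_add_one _)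
    have h3 : (1 : ℝ) ≤ ⌊η / j⌋₊ := by
      exact_mod_cast Nat.floor_pos.2 ((one_le_div hj).2 hjη)
    have h4 := h _ h1
    rw [div_mul_eq_mul_div, le_div_iff₀ hη]
    nlinarith [mul_le_mul_of_nonneg_right h4 hj.le, mul_nonneg hw hj.le]

namespace HG

variable {Γ : Type} [Group Γ] {q : ℕ} {ι : Type} (G : HG Γ q ι) {i k m : ι} {γ γ' : Γ} {u : Cm q}

theorem ev (h : u ∈ G.D i k γ) : ∀ᶠ u' in 𝓝 u, u' ∈ G.D i k γ := by
  obtain ⟨δ, hδ, h1⟩ := G.eq i k _ (G.sub _ _ _ u h).2 _ (G.sub _ _ _ u h).1 1 one_pos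
  filter_upwards [ball_mem_nhds u hδ] with u' hu'
  exact (h1 γ u h le_rfl le_rfl u' hu').1

theorem inv_h (h : u ∈ G.D i k γ) : G.h k i γ⁻¹ (G.h i k γ u) = u := by
  rw [← (G.mul k i k γ⁻¹ γ u h (G.inv _ _ _ u h)).2, inv_mul_cancel,
    (G.one k u (G.sub _ _ _ u h).1).2]

theorem fderiv_one (h : ‖u‖ < G.R i) :
    fderiv ℂ (G.h i i 1) u = ContinuousLinearMap.id ℂ (Cm q) := by
  have : G.h i i 1 =ᶠ[𝓝 u] id :=
    (continuousAt_id.norm.eventually_lt continuousAt_const h).mono fun x hx => (G.one i x hx).2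
  rw [this.fderiv_eq, fderiv_id]

theorem fderiv_mul (h' : u ∈ G.D k m γ') (h : G.h k m γ' u ∈ G.D i k γ) :
    fderiv ℂ (G.h i m (γ * γ')) u =
      (fderiv ℂ (G.h i k γ) (G.h k m γ' u)).comp (fderiv ℂ (G.h k m γ') u) := by
  have : G.h i m (γ * γ') =ᶠ[𝓝 u] G.h i k γ ∘ G.h k m γ' :=
    ((G.ev h').and ((G.an _ _ _ _ h').continuousAt.eventually (G.ev h))).mono fun x hx =>
      (G.mul i k m γ γ' x hx.1 hx.2).2
  rw [this.fderiv_eq, fderiv_comp _ (G.an _ _ _ _ h).differentiableAt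
    (G.an _ _ _ _ h').differentiableAt]

theorem js_nonneg (i : ι) (γ : Γ) (u : Cm q) : 0 ≤ G.js i γ u := le_max_of_le_left (norm_nonneg _)

/-- uniform regularity -/
theorem reg (i k : ι) {r r' : ℝ} (hr : r < G.R i) (hr' : r' < G.R k) : ∃ d > (0 : ℝ),
    ∃ c > (0 : ℝ), ∀ γ, ∀ u ∈ G.D i k γ, ‖u‖ ≤ r' → ‖G.h i k γ u‖ ≤ r → ∀ x ∈ ball u d,
      x ∈ G.D i k γ ∧ ‖G.h i k γ x - G.h i k γ u‖ ≤ c * ‖x - u‖ ∧ ‖fderiv ℂ (G.h i k γ) x‖ ≤ c ∧
        ‖fderiv ℂ (G.h i k γ) x - fderiv ℂ (G.h i k γ) u‖ ≤ c * ‖x - u‖ := by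
  obtain ⟨d, hd, h⟩ := G.eq i k r hr r' hr' 1 one_pos
  refine ⟨d / 2, by positivity, 4 / d + 16 / d ^ 2, by positivity, fun γ u hu h1 h2 x hx => ?_⟩
  obtain ⟨a1, a2, a3⟩ := cauchy (fun x hx => G.an _ _ _ _ (h γ u hu h1 h2 x hx).1)
    (fun x hx => (h γ u hu h1 h2 x hx).2.le) x hx
  have b1 : 0 ≤ 2 / d := by positivity
  have b2 : 0 ≤ 16 / d ^ 2 := by positivity
  have b3 : 4 / d = 2 * (2 / d) := by ring
  rw [mul_one] at a1 a2 a3
  exact ⟨(h γ u hu h1 h2 x (ball_subset_ball (by linarith) hx)).1,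
    a1.trans (mul_le_mul_of_nonneg_right (by linarith) (norm_nonneg _)), by linarith,
    a3.trans (mul_le_mul_of_nonneg_right (by linarith) (norm_nonneg _))⟩

end HG

theorem key : StKey := by
  intro Γ _ q ι G i r hr
  obtain ⟨ρ, ρ0, hρ⟩ : ∃ ρ > (0 : ℝ), r + ρ < G.R i := ⟨(G.R i - r) / 2, by linarith, by linarith⟩
  obtain ⟨d, d0, c, c0, h⟩ := G.reg i i hρ hρ
  obtain ⟨η, η0, η1, η2⟩ : ∃ η > (0 : ℝ), c * η ≤ ρ ∧ c * η ≤ 1 / 8 :=
    ⟨min ρ (1 / 8) / c, by positivity, by rw [mul_div_cancel₀ _ c0.ne']; exact min_le_left _ _,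
      by rw [mul_div_cancel₀ _ c0.ne']; exact min_le_right _ _⟩
  obtain ⟨e, e0, e1, e2⟩ : ∃ e > (0 : ℝ), e ≤ d ∧ c * e ≤ 1 / 4 :=
    ⟨min d (1 / 4 / c), by positivity, min_le_left _ _, by
      rw [← le_div_iff₀' c0]; exact min_le_right _ _⟩
  refine ⟨min e (e / 2 / c), by positivity, min (e / 2) η, by positivity, 2 * (4 * G.R i) / η,
    fun γ u hu hur hj t ht => ?_⟩
  have j0 := G.js_nonneg i γ u
  have j1 : ‖G.h i i γ u - u‖ ≤ G.js i γ u := le_max_left _ _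
  have j2 : ‖fderiv ℂ (G.h i i γ) u - ContinuousLinearMap.id ℂ (Cm q)‖ ≤ G.js i γ u :=
    le_max_right _ _
  generalize G.js i γ u = j at hj j0 j1 j2
  rw [lt_min_iff] at hj
  rw [mem_ball_iff_norm, lt_min_iff, lt_div_iff₀' c0] at ht
  have a0 : ∀ l : ℕ, l * j ≤ η → ∀ x, ‖x - u‖ ≤ c * (l * j) → ‖x‖ ≤ r + ρ := fun l hl x hx => by
    linarith [norm_le_norm_sub_add x u, mul_le_mul_of_nonneg_left hl c0.le]
  have a1 : ∀ l : ℕ, l * j ≤ η → u ∈ G.D i i (γ ^ l) ∧ ‖G.h i i (γ ^ l) u - u‖ ≤ c * (l * j) ∧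
      ‖fderiv ℂ (G.h i i (γ ^ l)) u - ContinuousLinearMap.id ℂ (Cm q)‖ ≤ 2 * c * (l * j) := by
    intro l
    induction l with
    | zero =>
      have := G.one i u (hur.trans_lt hr)
      rw [pow_zero, this.2, G.fderiv_one (hur.trans_lt hr)]
      simp [this.1]
    | succ l ih =>
      intro hl
      rw [Nat.cast_succ, add_mul, one_mul] at hl ⊢
      obtain ⟨b1, b2, b3⟩ := ih (by linarith)
      obtain ⟨b4, b5, b6, b7⟩ := h _ u b1 (by linarith) (a0 l (by linarith) _ b2) (G.h i i γ u)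
        (mem_ball_iff_norm.2 (by linarith [hj.1]))
      have b8 := mul_le_mul_of_nonneg_left j1 c0.le
      rw [pow_succ, (G.mul i i i _ γ u hu b4).2, G.fderiv_mul hu b4]
      refine ⟨(G.mul i i i _ γ u hu b4).1, by
        linarith [norm_sub_le_norm_sub_add_norm_sub (G.h i i (γ ^ l) (G.h i i γ u))
          (G.h i i (γ ^ l) u) u], ?_⟩
      generalize fderiv ℂ (G.h i i (γ ^ l)) (G.h i i γ u) = A at b6 b7
      have b9 := (A.opNorm_comp_le _).trans (mul_le_mul b6 j2 (norm_nonneg _) c0.le)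
      rw [ContinuousLinearMap.comp_sub, ContinuousLinearMap.comp_id] at b9
      linarith [norm_sub_le_norm_sub_add_norm_sub (A.comp (fderiv ℂ (G.h i i γ) u)) A
        (ContinuousLinearMap.id ℂ (Cm q)), norm_sub_le_norm_sub_add_norm_sub A
        (fderiv ℂ (G.h i i (γ ^ l)) u) (ContinuousLinearMap.id ℂ (Cm q))]
  have a2 : ∀ l : ℕ, l * j ≤ η → ∀ x ∈ ball u e, x ∈ G.D i i (γ ^ l) ∧
      ‖fderiv ℂ (G.h i i (γ ^ l)) x - ContinuousLinearMap.id ℂ (Cm q)‖ ≤ 1 / 2 := by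
    intro l hl x hx
    obtain ⟨b1, b2, b3⟩ := a1 l hl
    obtain ⟨b4, -, -, b5⟩ := h _ u b1 (by linarith) (a0 l hl _ b2) x (ball_subset_ball e1 hx)
    refine ⟨b4, ?_⟩
    linarith [norm_sub_le_norm_sub_add_norm_sub (fderiv ℂ (G.h i i (γ ^ l)) x)
      (fderiv ℂ (G.h i i (γ ^ l)) u) (ContinuousLinearMap.id ℂ (Cm q)),
      mul_le_mul_of_nonneg_left hl c0.le,
      mul_le_mul_of_nonneg_left (mem_ball_iff_norm.1 hx).le c0.le]
  have a3 : t ∈ ball u e := mem_ball_iff_norm.2 ht.1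
  obtain ⟨a4, a5, -⟩ := h γ u hu (by linarith) (by
    linarith [norm_le_norm_sub_add (G.h i i γ u) u, a1 1 (by simpa using hj.2.le),
      a0 1 (by simpa using hj.2.le) _ (by simpa using (a1 1 (by simpa using hj.2.le)).2.1)]) t
    (ball_subset_ball e1 a3)
  have a6 : G.h i i γ t ∈ ball u e := mem_ball_iff_norm.2 (by
    linarith [norm_sub_le_norm_sub_add_norm_sub (G.h i i γ t) (G.h i i γ u) u, hj.1, ht.2])
  have a7 : ∀ l : ℕ, l * j ≤ η → ‖G.h i i (γ ^ l) t - t - (l : ℝ) • (G.h i i γ t - t)‖ ≤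
      l * (1 / 2 * ‖G.h i i γ t - t‖) := by
    intro l
    induction l with
    | zero =>
      intro _
      rw [pow_zero, (G.one i t (G.sub _ _ _ _ a4).1).2]
      simp
    | succ l ih =>
      intro hl
      rw [Nat.cast_succ, add_mul, one_mul] at hl
      have b0 := a2 l (by linarith)
      have b1 := (convex_ball u e).norm_image_sub_le_of_norm_fderiv_le'
        (fun x hx => (G.an _ _ _ _ (b0 x hx).1).differentiableAt) (fun x hx => (b0 x hx).2) a3 a6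
      rw [pow_succ, (G.mul i i i _ γ t a4 (b0 _ a6).1).2, Nat.cast_succ, add_mul, add_smul,
        one_smul, one_mul]
      refine le_trans (le_of_eq ?_) ((norm_add_le _ _).trans (add_le_add (ih (by linarith)) b1))
      congr 1
      simp only [ContinuousLinearMap.id_apply]
      abel
  refine ⟨a4, le_of_nat (fun a ha => ?_) j0 η0 hj.2.le (norm_nonneg _)⟩
  have b1 := G.sub _ _ _ _ (a2 a ha t a3).1
  have b2 := norm_sub_norm_le ((a : ℝ) • (G.h i i γ t - t)) (G.h i i (γ ^ a) t - t)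
  rw [norm_sub_rev (_ • _), norm_smul, Real.norm_natCast] at b2
  linarith [a7 a ha, norm_sub_le (G.h i i (γ ^ a) t) t]

end Vale.Agent.P284Z.H
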