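import Vale.Agent.P284Z.H.Key

/-!
# P284Z, block H: the local structure of the group from the groupoid
-/

open scoped Topology
open Filter Set Metric

noncomputable section

namespace Vale.Agent.P284Z.H

open Vale.Agent.P272.K

/-- the key estimate with derivatives -/
theorem key2 (hK : StKey) {Γ : Type} [Group Γ] {q : ℕ} {ι : Type} (G : HG Γ q ι) (i : ι) {r : ℝ}
    (hr : r < G.R i) : ∃ δ > (0 : ℝ), ∃ ε > (0 : ℝ), ∃ c > (0 : ℝ), ∀ γ, ∀ u ∈ G.D i i γ,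
      ‖u‖ ≤ r → G.js i γ u < ε → ∀ x ∈ ball u δ, x ∈ G.D i i γ ∧ G.js i γ x ≤ c * G.js i γ u ∧
        ‖G.h i i γ x - x - (G.h i i γ u - u)‖ ≤ c * G.js i γ u * ‖x - u‖ ∧
        ‖fderiv ℂ (G.h i i γ) x - fderiv ℂ (G.h i i γ) u‖ ≤ c * G.js i γ u * ‖x - u‖ := by
  obtain ⟨δ, δ0, ε, ε0, K, h⟩ := hK Γ q ι G i r hr
  refine ⟨δ / 2, by positivity, ε, ε0, (|K| + 1) * (1 + 4 / δ + 16 / δ ^ 2), by positivity,
    fun γ u hu h1 h2 x hx => ?_⟩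
  have j0 := G.js_nonneg i γ u
  have a0 : ∀ y ∈ ball u δ, ‖G.h i i γ y - y - 0‖ ≤ (|K| + 1) * G.js i γ u := fun y hy => by
    rw [sub_zero]
    exact (h γ u hu h1 h2 y hy).2.trans (mul_le_mul_of_nonneg_right
      ((le_abs_self K).trans (le_add_of_nonneg_right zero_le_one)) j0)
  obtain ⟨a1, a2, a3⟩ := cauchy (f := fun y => G.h i i γ y - y)
    (fun y hy => (G.an _ _ _ _ (h γ u hu h1 h2 y hy).1).sub analyticAt_id) a0 x hx
  have hx' : x ∈ ball u δ := ball_subset_ball (by linarith) hx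
  have a4 : ∀ y ∈ G.D i i γ, fderiv ℂ (fun y => G.h i i γ y - y) y =
      fderiv ℂ (G.h i i γ) y - ContinuousLinearMap.id ℂ (Cm q) := fun y hy =>
    ((G.an _ _ _ _ hy).differentiableAt.hasFDerivAt.sub (hasFDerivAt_id y)).fderiv
  rw [a4 x (h γ u hu h1 h2 x hx').1] at a2 a3
  rw [a4 u hu, sub_sub_sub_cancel_right] at a3
  have a5 := a0 x hx'
  rw [sub_zero] at a5
  have b0 : 0 ≤ (|K| + 1) * G.js i γ u := by positivity
  have b4 : (|K| + 1) * (1 + 4 / δ + 16 / δ ^ 2) * G.js i γ u = (|K| + 1) * G.js i γ u +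
    4 * ((|K| + 1) * G.js i γ u) / δ + 16 * ((|K| + 1) * G.js i γ u) / δ ^ 2 := by ring
  rw [b4]
  generalize (|K| + 1) * G.js i γ u = M at a1 a2 a3 a5 b0
  have b1 : 0 ≤ 2 * M / δ := by positivity
  have b2 : 0 ≤ 16 * M / δ ^ 2 := by positivity
  have b3 : 4 * M / δ = 2 * (2 * M / δ) := by ring
  exact ⟨(h γ u hu h1 h2 x hx').1, max_le (by linarith) (by linarith),
    a1.trans (mul_le_mul_of_nonneg_right (by linarith) (norm_nonneg _)),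
    a3.trans (mul_le_mul_of_nonneg_right (by linarith) (norm_nonneg _))⟩

theorem HG.js_inv {Γ : Type} [Group Γ] {q : ℕ} {ι : Type} (G : HG Γ q ι) {i : ι} {γ : Γ} {u : Cm q}
    (hu : u ∈ G.D i i γ) (h : G.js i γ u ≤ 1 / 2) :
    G.js i γ⁻¹ (G.h i i γ u) ≤ 2 * G.js i γ u := by
  have j1 : ‖G.h i i γ u - u‖ ≤ G.js i γ u := le_max_left _ _
  have j2 : ‖fderiv ℂ (G.h i i γ) u - ContinuousLinearMap.id ℂ (Cm q)‖ ≤ G.js i γ u :=
    le_max_right _ _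
  refine max_le (by rw [G.inv_h hu, norm_sub_rev]; linarith [G.js_nonneg i γ u]) ?_
  have a1 := G.fderiv_mul hu (G.inv _ _ _ _ hu)
  rw [inv_mul_cancel, G.fderiv_one (G.sub _ _ _ _ hu).1] at a1
  generalize fderiv ℂ (G.h i i γ⁻¹) (G.h i i γ u) = B at a1
  have a2 := (B.opNorm_comp_le _).trans (mul_le_mul_of_nonneg_left j2 (norm_nonneg B))
  rw [ContinuousLinearMap.comp_sub, ContinuousLinearMap.comp_id, ← a1, norm_sub_rev] at a2
  have a3 := norm_le_norm_sub_add B (ContinuousLinearMap.id ℂ (Cm q))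
  have a4 : ‖ContinuousLinearMap.id ℂ (Cm q)‖ ≤ 1 := ContinuousLinearMap.norm_id_le
  nlinarith [G.js_nonneg i γ u, norm_nonneg (B - ContinuousLinearMap.id ℂ (Cm q))]

/-- change of the target space of the jets -/
theorem ls_of {Γ V : Type} [Group Γ] [NormedAddCommGroup V] [NormedSpace ℝ V]
    [FiniteDimensional ℝ V] (N : Set Γ) (J : Γ → V) {ε₀ K : ℝ} (h0 : 0 < ε₀) (hK : 0 ≤ K)
    (one : (1 : Γ) ∈ N ∧ J 1 = 0)
    (mul : ∀ g ∈ N, ∀ h ∈ N, ‖J g‖ < ε₀ → ‖J h‖ < ε₀ →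
      g * h ∈ N ∧ ‖J (g * h) - J g - J h‖ ≤ K * (‖J g‖ * ‖J h‖))
    (inv : ∀ g ∈ N, ‖J g‖ < ε₀ → g⁻¹ ∈ N ∧ ‖J g⁻¹ + J g‖ ≤ K * ‖J g‖ ^ 2)
    (conj : ∀ a : Γ, ∃ ε > 0, ∃ K' : ℝ, ∀ g ∈ N, ‖J g‖ < ε →
      a * g * a⁻¹ ∈ N ∧ ‖J (a * g * a⁻¹)‖ ≤ K' * ‖J g‖)
    (nondisc : ∀ ε > 0, ∃ g ∈ N, g ≠ 1 ∧ ‖J g‖ < ε) (m : ℕ → Γ → ℝ) (m0 : ∀ j g, 0 ≤ m j g)
    (m1 : ∀ j, HasSum (m j) 1) (reiter : ∀ η > 0, ∃ ε > 0, ∀ g ∈ N, ‖J g‖ < ε →
      ∀ᶠ j in atTop, ∑' h, |m j (g⁻¹ * h) - m j h| ≤ η) : Nonempty (LS Γ) := by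
  let e : V ≃L[ℝ] (Fin (Module.finrank ℝ V) → ℝ) := ContinuousLinearEquiv.ofFinrankEq (by simp)
  obtain ⟨a, a0, ha⟩ := e.toContinuousLinearMap.bound
  obtain ⟨b, b0, hb⟩ := e.symm.toContinuousLinearMap.bound
  have ha : ∀ x, ‖e x‖ ≤ a * ‖x‖ := ha
  have hb : ∀ x, ‖x‖ ≤ b * ‖e x‖ := fun x => by simpa using hb (e x)
  have hc : ∀ {x ε}, ‖e x‖ < ε / b → ‖x‖ < ε := fun h => (hb _).trans_lt ((lt_div_iff₀' b0).1 h)
  refine ⟨⟨_, N, fun g => e (J g), ε₀ / b, by positivity, a * K * b ^ 2,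
    ⟨one.1, by rw [one.2, map_zero]⟩, fun g hg h hh h1 h2 => ?_, fun g hg h1 => ?_, fun c => ?_,
    fun ε hε => ?_, m, m0, m1, fun η hη => ?_⟩⟩
  · obtain ⟨h3, h4⟩ := mul g hg h hh (hc h1) (hc h2)
    refine ⟨h3, ?_⟩
    rw [← map_sub, ← map_sub]
    calc _ ≤ a * (K * (‖J g‖ * ‖J h‖)) := (ha _).trans (by gcongr)
      _ ≤ a * (K * (b * ‖e (J g)‖ * (b * ‖e (J h)‖))) := by gcongr <;> exact hb _
      _ = _ := by ring
  · obtain ⟨h3, h4⟩ := inv g hg (hc h1)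
    refine ⟨h3, ?_⟩
    rw [← map_add]
    calc _ ≤ a * (K * ‖J g‖ ^ 2) := (ha _).trans (by gcongr)
      _ ≤ a * (K * (b * ‖e (J g)‖) ^ 2) := by gcongr; exact hb _
      _ = _ := by ring
  · obtain ⟨ε, hε, K', h⟩ := conj c
    refine ⟨ε / b, by positivity, a * (|K'| * b), fun g hg h1 => ⟨(h g hg (hc h1)).1, ?_⟩⟩
    have h2 := (h g hg (hc h1)).2
    calc _ ≤ a * (K' * ‖J g‖) := (ha _).trans (by gcongr)
      _ ≤ a * (|K'| * (b * ‖e (J g)‖)) := by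
        gcongr
        · exact le_abs_self _
        · exact hb _
      _ = _ := by ring
  · obtain ⟨g, hg, h1, h2⟩ := nondisc (ε / a) (by positivity)
    exact ⟨g, hg, h1, (ha _).trans_lt ((lt_div_iff₀' a0).1 h2)⟩
  · obtain ⟨ε, hε, h⟩ := reiter η hη
    exact ⟨ε / b, by positivity, fun g hg h1 => h g hg (hc h1)⟩

theorem ls (hK : StKey) (hC : StCj) : StLs := by
  intro Γ _ q ι G i t ht hR m m0 m1 m2
  obtain ⟨ρ, ρ0, hρ⟩ : ∃ ρ > (0 : ℝ), ‖t‖ + ρ < G.R i :=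
    ⟨(G.R i - ‖t‖) / 2, by linarith, by linarith⟩
  obtain ⟨δ, δ0, ε, ε0, c, c0, h⟩ := key2 hK G i hρ
  let J : Γ → Cm q × (Cm q →L[ℂ] Cm q) := fun g =>
    (G.h i i g t - t, fderiv ℂ (G.h i i g) t - ContinuousLinearMap.id ℂ (Cm q))
  have hJ : ∀ g, ‖J g‖ = G.js i g t := fun _ => rfl
  have j1 : ∀ g, ‖G.h i i g t - t‖ ≤ G.js i g t := fun _ => le_max_left _ _
  have j2 : ∀ g x, ‖fderiv ℂ (G.h i i g) x - ContinuousLinearMap.id ℂ (Cm q)‖ ≤ G.js i g x :=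
    fun _ _ => le_max_right _ _
  have one : J 1 = 0 := by simp only [J, (G.one i t ht).2, G.fderiv_one ht, sub_self, Prod.mk_zero_zero]
  have mul : ∀ g g', t ∈ G.D i i g → t ∈ G.D i i g' → G.js i g t < ε → G.js i g' t < δ →
      t ∈ G.D i i (g * g') ∧ ‖J (g * g') - J g - J g'‖ ≤ 2 * c * (G.js i g t * G.js i g' t) := by
    intro g g' hg hg' h1 h2
    obtain ⟨a1, a2, a3, a4⟩ := h g t hg (by linarith) h1 _
      (mem_ball_iff_norm.2 ((j1 g').trans_lt h2))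
    have a5 : c * G.js i g t * ‖G.h i i g' t - t‖ ≤ c * (G.js i g t * G.js i g' t) := by
      rw [← mul_assoc]
      exact mul_le_mul_of_nonneg_left (j1 g') (mul_nonneg c0.le (G.js_nonneg _ _ _))
    have a6 : 0 ≤ c * (G.js i g t * G.js i g' t) :=
      mul_nonneg c0.le (mul_nonneg (G.js_nonneg _ _ _) (G.js_nonneg _ _ _))
    refine ⟨(G.mul i i i g g' t hg' a1).1, max_le ?_ ?_⟩
    · refine le_trans (le_of_eq ?_) (a3.trans (by linarith))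
      congr 1
      simp only [J, Prod.fst_sub, (G.mul i i i g g' t hg' a1).2]
      abel
    · have a7 := (ContinuousLinearMap.opNorm_comp_le _ _).trans (mul_le_mul ((j2 g _).trans a2)
        (j2 g' t) (norm_nonneg _) (mul_nonneg c0.le (G.js_nonneg _ _ _)))
      refine le_trans (le_of_eq ?_) ((norm_add_le _ _).trans ((add_le_add a7 a4).trans (by linarith)))
      congr 1
      simp only [J, Prod.snd_sub, G.fderiv_mul hg' a1, ContinuousLinearMap.comp_sub,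
        ContinuousLinearMap.sub_comp, ContinuousLinearMap.comp_id, ContinuousLinearMap.id_comp]
      abel
  obtain ⟨e, e0, e1, e2, e3, e4, e5⟩ : ∃ e > (0 : ℝ), e ≤ 1 / 2 ∧ e ≤ δ ∧ e ≤ ρ ∧ 2 * e ≤ ε ∧
      2 * c * e ≤ ε := ⟨min (min (1 / 2) δ) (min ρ (min (ε / 2) (ε / (2 * c)))), by positivity,
    by simp, by simp, by simp, by rw [← le_div_iff₀' two_pos]; simp,
    by rw [← le_div_iff₀' (by positivity)]; simp⟩
  refine ls_of {g | t ∈ G.D i i g} J e0 (K := 2 * c + 4 * c ^ 2) (by positivity)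
    ⟨(G.one i t ht).1, one⟩ (fun g hg g' hg' h1 h2 => ?_) (fun g hg h1 => ?_) (hC Γ q ι G i t ht).1
    (fun ε hε => ((hC Γ q ι G i t ht).2 hR ε hε).imp fun g k => ⟨k.2.1, k.1, k.2.2⟩) m m0 m1
    fun η hη => (m2 η hη).imp fun ε k => ⟨k.1, fun g hg h1 => k.2 g hg ((j1 g).trans_lt h1)⟩
  · rw [hJ] at h1 h2
    obtain ⟨a1, a2⟩ := mul g g' hg hg' (by linarith) (by linarith)
    exact ⟨a1, a2.trans (mul_le_mul_of_nonneg_right (by nlinarith)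
      (mul_nonneg (G.js_nonneg _ _ _) (G.js_nonneg _ _ _)))⟩
  · rw [hJ] at h1 ⊢
    have a0 := G.js_nonneg i g t
    have a1 := G.js_inv hg (by linarith)
    obtain ⟨a2, a3, -⟩ := h g⁻¹ _ (G.inv _ _ _ _ hg)
      (by linarith [norm_le_norm_sub_add (G.h i i g t) t, j1 g]) (by linarith) t
      (mem_ball_iff_norm'.2 (by linarith [j1 g]))
    have a4 : G.js i g⁻¹ t ≤ 2 * c * G.js i g t := by nlinarith
    obtain ⟨-, a5⟩ := mul g⁻¹ g a2 hg (by nlinarith) (by linarith)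
    rw [inv_mul_cancel, one, zero_sub, ← neg_add', norm_neg] at a5
    refine ⟨a2, a5.trans ?_⟩
    nlinarith [mul_le_mul_of_nonneg_right a4 a0, mul_nonneg c0.le (mul_nonneg a0 a0)]

end Vale.Agent.P284Z.H
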