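import Vale.Agent.P284Z.H.Bas

/-!
# P284Z, block H: the tube, and the assembly of the block from its steps
-/

open scoped Topology
open Filter Set Metric MeasureTheory

noncomputable section

namespace Vale.Agent.P284Z.H

open Vale.Agent.P272.K

theorem HG.ev_mem {Γ : Type} [Group Γ] {q : ℕ} {ι : Type} (G : HG Γ q ι) {i k : ι} {γ : Γ}
    {u : Cm q} (h : u ∈ G.D i k γ) : ∀ᶠ u' in 𝓝 u, u' ∈ G.D i k γ := by
  obtain ⟨δ, hδ, h1⟩ := G.eq i k _ (G.sub _ _ _ u h).2 _ (G.sub _ _ _ u h).1 1 one_pos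
  filter_upwards [ball_mem_nhds u hδ] with u' hu'
  exact (h1 γ u h le_rfl le_rfl u' hu').1

theorem HG.inv_apply {Γ : Type} [Group Γ] {q : ℕ} {ι : Type} (G : HG Γ q ι) {i k : ι} {γ : Γ}
    {u : Cm q} (h : u ∈ G.D i k γ) : G.h k i γ⁻¹ (G.h i k γ u) = u := by
  rw [← (G.mul k i k γ⁻¹ γ u h (G.inv _ _ _ u h)).2, inv_mul_cancel,
    (G.one k u (G.sub _ _ _ u h).1).2]

variable {n : ℕ} {Γ E : Type} [Group Γ] [TopologicalSpace E] [MulAction Γ E] {C : Cov n Γ E}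
  {D : LD C} {L : Lim D} {Z : ZD L} {Φ : FD Z}

theorem hol_co (γ : Γ) (a : C.I) : C.HolOn (C.co γ a) {y | γ⁻¹ • y ∈ (C.e a).source} :=
  fun g b z hz h => by
    have := C.hol (γ⁻¹ * g) b a z hz (by rw [mul_smul]; exact h)
    simp only [mul_smul] at this
    exact this

namespace FG

variable (F : FG Φ) (N : Ch Φ)

/-- the point `y` is related to the plaque `t` of `N` -/
def Rel (y : E) (t : Cm Φ.q) : Prop :=
  ∃ M : Ch Φ, y ∈ M.1.Ψ.source ∧ (M.1.Ψ y).2 ∈ F.G.D N M 1 ∧ F.G.h N M 1 (M.1.Ψ y).2 = t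

open Classical in
/-- the plaque related to `y` -/
def s (y : E) : Cm Φ.q := if h : ∃ t, F.Rel N y t then h.choose else 0

variable {F N} {M : Ch Φ} {y : E} {t : Cm Φ.q}

theorem Rel.chart {γ : Γ} (h : F.Rel N (γ • y) t) (hy : y ∈ M.1.Ψ.source) :
    (M.1.Ψ y).2 ∈ F.G.D N M γ ∧ F.G.h N M γ (M.1.Ψ y).2 = t := by
  obtain ⟨M', h1, h2, rfl⟩ := h
  obtain ⟨h3, h4⟩ := F.ov M' M γ y hy h1
  have := F.G.mul N M' M 1 γ _ h3 (by rwa [h4])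
  rwa [one_mul, h4] at this

theorem Rel.chart1 (h : F.Rel N y t) (hy : y ∈ M.1.Ψ.source) :
    (M.1.Ψ y).2 ∈ F.G.D N M 1 ∧ F.G.h N M 1 (M.1.Ψ y).2 = t :=
  Rel.chart (by rwa [one_smul]) hy

theorem Rel.s_eq (h : F.Rel N y t) : F.s N y = t := by
  have h' : ∃ t, F.Rel N y t := ⟨t, h⟩
  obtain ⟨M, h1, -, h2⟩ := h
  rw [s, dif_pos h', ← h2, (h'.choose_spec.chart1 h1).2]

theorem ev_rel (hy : y ∈ M.1.Ψ.source) (h : (M.1.Ψ y).2 ∈ F.G.D N M 1) :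
    ContinuousAt (fun y => F.G.h N M 1 (M.1.Ψ y).2) y ∧
      ∀ᶠ y' in 𝓝 y, F.Rel N y' (F.G.h N M 1 (M.1.Ψ y').2) := by
  have h1 := (M.1.Ψ.continuousAt hy).snd
  refine ⟨(F.G.an _ _ _ _ h).continuousAt.comp (f := fun y => (M.1.Ψ y).2) h1, ?_⟩
  filter_upwards [M.1.Ψ.open_source.mem_nhds hy, h1.eventually (F.G.ev_mem h)] with y' h2 h3
  exact ⟨M, h2, h3, rfl⟩

theorem Rel.an {γ : Γ} {a : C.I} {z : Cm n} (hz : z ∈ C.B 4 a) (h : F.Rel N (C.pt γ a z) t) :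
    AnalyticAt ℂ (fun w => F.s N (C.pt γ a w)) z := by
  obtain ⟨M, h1, h2, -⟩ := h
  refine ((F.G.an _ _ _ _ h2).comp (f := fun w => (M.1.Ψ (C.pt γ a w)).2)
    (analyticAt_snd.comp (M.1.hol γ a z hz h1))).congr ?_
  exact ((cont_pt γ hz).eventually (ev_rel h1 h2).2).mono fun w hw => hw.s_eq.symm

theorem Rel.subm {γ : Γ} {a : C.I} {z : Cm n} (hz : z ∈ C.B 4 a) (h : F.Rel N (C.pt γ a z) t) :
    Function.Surjective (fderiv ℂ (fun w => F.s N (C.pt γ a w)) z) := by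
  have h0 := h.an hz
  obtain ⟨M, h1, h2, rfl⟩ := h
  set v := M.1.Ψ (C.pt γ a z) with hv
  have a1 := F.G.inv _ _ _ _ h2
  have a2 := F.G.inv_apply h2
  rw [inv_one] at a1 a2
  have a3 : AnalyticAt ℂ (fun t' => (v.1, F.G.h M N 1 t')) (F.G.h N M 1 v.2) :=
    analyticAt_const.prod (F.G.an _ _ _ _ a1)
  have a4 : (v.1, F.G.h M N 1 (F.G.h N M 1 v.2)) ∈ M.1.Ψ.target := by
    rw [a2]
    exact M.1.Ψ.map_source h1
  have a5 : (1 : Γ) • M.1.Ψ.symm (v.1, F.G.h M N 1 (F.G.h N M 1 v.2)) = C.pt γ a z := by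
    rw [a2, one_smul]
    exact M.1.Ψ.left_inv h1
  have a6 : γ⁻¹ • C.pt γ a z ∈ (C.e a).source := by
    rw [Cov.pt, inv_smul_smul]
    exact (C.e a).map_target (by rw [C.tgt]; exact hz)
  have a7 := (an_of_hol (hol_co γ a) 1 a4 (by rwa [a5])).comp
    (f := fun t' => (v.1, F.G.h M N 1 t')) a3
  have a8 : C.co γ a ((1 : Γ) • M.1.Ψ.symm (v.1, F.G.h M N 1 (F.G.h N M 1 v.2))) = z := by
    rw [a5, co_pt γ hz]
  have a0 : HasFDerivAt (fun w => F.s N (C.pt γ a w)) (fderiv ℂ (fun w => F.s N (C.pt γ a w)) z)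
      (C.co γ a ((1 : Γ) • M.1.Ψ.symm (v.1, F.G.h M N 1 (F.G.h N M 1 v.2)))) := by
    rw [a8]
    exact h0.differentiableAt.hasFDerivAt
  have a9 := a0.comp (F.G.h N M 1 v.2) a7.differentiableAt.hasFDerivAt
  have b1 : ∀ᶠ t' in 𝓝 (F.G.h N M 1 v.2), t' = F.s N (C.pt γ a
      (C.co γ a ((1 : Γ) • M.1.Ψ.symm (v.1, F.G.h M N 1 t')))) := by
    filter_upwards [F.G.ev_mem a1, a3.continuousAt.eventually_mem (M.1.Ψ.open_target.mem_nhds a4),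
      ((C.cont γ⁻¹).continuousAt.comp ((cont_symm 1 a4).comp
        (f := fun t' => (v.1, F.G.h M N 1 t')) a3.continuousAt)).eventually_mem
        ((C.e a).open_source.mem_nhds (show γ⁻¹ • (1 : Γ) • M.1.Ψ.symm
          (v.1, F.G.h M N 1 (F.G.h N M 1 v.2)) ∈ _ by rwa [a5]))] with t' b1 b2 b3
    have b4 := F.G.inv _ _ _ _ b1
    have b5 := F.G.inv_apply b1
    rw [inv_one] at b4 b5
    simp only [Function.comp] at b3
    rw [Cov.pt, Cov.co, (C.e a).left_inv b3, smul_inv_smul, one_smul]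
    refine (Rel.s_eq ⟨M, M.1.Ψ.map_target b2, ?_⟩).symm
    rw [M.1.Ψ.right_inv b2]
    exact ⟨b4, b5⟩
  have b2 := (hasFDerivAt_id (𝕜 := ℂ) _).unique (a9.congr_of_eventuallyEq b1)
  exact fun x => ⟨_, (DFunLike.congr_fun b2 x).symm⟩

theorem Rel.closed {r : ℝ} {t₀ : Cm Φ.q} (hr : ‖t₀‖ + r < N.1.R) (hy : y ∈ Φ.En)
    (h : ∃ᶠ y' in 𝓝 y, ∃ t, F.Rel N y' t ∧ ‖t - t₀‖ ≤ r) : ∃ t, F.Rel N y t ∧ ‖t - t₀‖ ≤ r := by
  obtain ⟨M, h1, h2, h3⟩ := Φ.nice y hy univ univ_mem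
  obtain ⟨M, rfl⟩ : ∃ M' : Ch Φ, M'.1 = M := ⟨⟨M, h3.trans inter_subset_left⟩, rfl⟩
  obtain ⟨δ, hδ, h4⟩ := F.G.eq N M _ (hr.trans_eq (F.R_eq N).symm) (M.1.R / 2)
    (by rw [F.R_eq]; linarith [M.1.R_pos]) 1 one_pos
  have h5 := (M.1.Ψ.continuousAt h1).snd.norm
  have h6 : ‖(M.1.Ψ y).2‖ = 0 := by rw [h2]; exact norm_zero
  have h7 : (M.1.Ψ y).2 ∈ F.G.D N M 1 := by
    obtain ⟨y', ⟨t, b1, b2⟩, b3, b4, b5⟩ := (h.and_eventually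
      ((M.1.Ψ.open_source.eventually_mem h1).and
      ((h5.eventually_lt continuousAt_const (h6.trans_lt hδ)).and
        (h5.eventually_lt continuousAt_const (h6.trans_lt (half_pos M.1.R_pos)))))).exists
    obtain ⟨b6, b7⟩ := b1.chart1 b3
    refine (h4 1 _ b6 b5.le ?_ _ ?_).1
    · rw [b7]
      linarith [norm_le_norm_sub_add t t₀]
    · rw [mem_ball, dist_comm, h2]
      exact (dist_zero_right _).trans_lt b4
  obtain ⟨h8, h9⟩ := ev_rel h1 h7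
  refine ⟨_, h9.self_of_nhds, isClosed_Iic.mem_of_frequently_of_tendsto
    ((h.and_eventually h9).mono ?_) (h8.sub_const t₀).norm⟩
  rintro y' ⟨⟨t, b1, b2⟩, b3⟩
  rwa [← b1.s_eq, b3.s_eq] at b2

end FG

theorem stH_of (hL : StLs) (hA : StAe) (hG : StGrp) (hR : StRei) : StH := by
  intro n Γ E _ _ _ _ _ _ C D L Z hS hT Φ N hN
  obtain ⟨N, rfl⟩ : ∃ M' : Ch Φ, M'.1 = N := ⟨⟨N, hN⟩, rfl⟩
  obtain ⟨F⟩ := hG n Γ E C D L Z hS hT Φ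
  obtain ⟨a₀, ha₀, h1⟩ := (Measure.dense_of_ae (Measure.ae_ae_of_ae_prod
    (hA n Γ E C D L Z _ _ _ Φ.dim N.1))).inter_open_nonempty (ball 0 N.1.R) isOpen_ball
    (nonempty_ball.2 N.1.R_pos)
  rw [mem_ofPred] at h1
  obtain ⟨t₀, ht₀, h2⟩ := (Measure.dense_of_ae h1).inter_open_nonempty (ball 0 (N.1.R / 2))
    isOpen_ball (nonempty_ball.2 (half_pos N.1.R_pos))
  rw [mem_ball_zero_iff] at ha₀ ht₀
  have h3 : ∀ t ∈ closedBall t₀ (N.1.R / 2), (a₀, t) ∈ ball (0 : Cm Φ.d × Cm Φ.q) N.1.R :=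
    fun t ht => N.1.tgt ▸ (tgt_iff N.1).2 ⟨ha₀, by
      linarith [norm_le_norm_sub_add t t₀, mem_closedBall_iff_norm.1 ht]⟩
  have h4 := h3 t₀ (mem_closedBall_self (half_pos N.1.R_pos).le)
  refine ⟨⟨a₀, t₀, N.1.R / 2, half_pos N.1.R_pos, h3, h2 h4,
    h1.mono fun t h ht => h (h3 t (ball_subset_closedBall ht)),
    {y | ∃ t ∈ ball t₀ (N.1.R / 2), F.Rel N y t}, F.s N, ?_, ?_, ?_, ?_, ?_, ?_, ?_⟩, ?_⟩
  · refine isOpen_iff_eventually.2 ?_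
    rintro y ⟨_, ht, M, b1, b2, rfl⟩
    filter_upwards [(FG.ev_rel b1 b2).2, (FG.ev_rel b1 b2).1.eventually_mem
      (isOpen_ball.mem_nhds ht)] with y' b3 b4
    exact ⟨_, b4, b3⟩
  · rintro y ⟨t, -, M, b1, -⟩
    exact M.2 b1
  · rintro y ⟨t, ht, h⟩
    rw [h.s_eq]
    obtain ⟨M, b1, b2, rfl⟩ := h
    have := (F.pr N M 1 _ b2).2.2 a₀ _ ha₀ (lt_R b1).1
    rw [one_smul, Prod.mk.eta, M.1.Ψ.left_inv b1] at this
    exact ⟨ht, this⟩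
  · exact fun γ a z hz ⟨t, _, h⟩ => h.an hz
  · exact fun γ a z hz ⟨t, _, h⟩ => h.subm hz
  · intro y hy ht
    have h : F.Rel N y (N.1.Ψ y).2 := ⟨N, hy, F.G.one N _ ((lt_R hy).2.trans_eq (F.R_eq N).symm)⟩
    exact ⟨⟨_, ht, h⟩, h.s_eq⟩
  · intro K hK hKE r hr
    refine hK.of_isClosed_subset (isClosed_of_closure_subset fun y hy => ?_) inter_subset_left
    have b1 : y ∈ K := hK.isClosed.closure_subset_iff.2 inter_subset_left hy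
    obtain ⟨t, b2, b3⟩ := FG.Rel.closed (F := F) (N := N) (t₀ := t₀) (r := r) (by linarith)
      (hKE b1) ((mem_closure_iff_frequently.1 hy).mono fun y' ⟨_, ⟨t, _, h⟩, h'⟩ =>
        ⟨t, h, h.s_eq ▸ h'⟩)
    exact ⟨b1, ⟨t, mem_ball_iff_norm.2 (b3.trans_lt hr), b2⟩, b2.s_eq.symm ▸ b3⟩
  · rintro ⟨K, hK, hKE, r, hr, hI⟩
    obtain ⟨m, m1, m2, m3⟩ := hR n Γ E C D L Z _ _ _ N.1 a₀ t₀ h4 (h2 h4).1 (h2 h4).2
    refine hL Γ Φ.q _ F.G N t₀ (by rw [F.R_eq]; linarith [N.1.R_pos]) ?_ m m1 m2 fun η hη =>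
      (m3 η hη).imp fun ε h => ⟨h.1, fun g b1 b2 => h.2 g _ (F.pr N N g _ b1) b2⟩
    choose M b1 b2 b3 using fun y : K => Φ.nice y (hKE y.2) univ univ_mem
    let M' : K → Ch Φ := fun y => ⟨M y, (b3 y).trans inter_subset_left⟩
    obtain ⟨S, hS⟩ := hK.elim_nhds_subcover' (fun y hy => {y' | y' ∈ (M ⟨y, hy⟩).Ψ.source ∧
      ‖((M ⟨y, hy⟩).Ψ y').2‖ < (M ⟨y, hy⟩).R / 2}) fun y hy =>
      ((M _).Ψ.open_source.eventually_mem (b1 ⟨y, hy⟩)).and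
        (((M _).Ψ.continuousAt (b1 ⟨y, hy⟩)).snd.norm.eventually_lt continuousAt_const (by
          rw [b2 ⟨y, hy⟩]
          exact norm_zero.trans_lt (half_pos (M _).R_pos)))
    by_contra hn
    refine hI ((S.finite_toSet.biUnion fun y _ => not_infinite.1 fun h => hn ⟨N, M' y, ‖t₀‖ + r,
      by rw [F.R_eq]; exact (add_lt_add ht₀ hr).trans_eq (add_halves _), (M y).R / 2,
      by rw [F.R_eq]; exact half_lt_self (M y).R_pos, h⟩).subset ?_)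
    rintro γ ⟨y, hy, ⟨t, -, c1⟩, c2⟩
    obtain ⟨x, c3, c4, c5⟩ := mem_iUnion₂.1 (hS hy)
    obtain ⟨c6, c7⟩ := c1.chart (M := M' x) c4
    refine mem_biUnion c3 ⟨_, c6, c5.le, ?_⟩
    have c8 : ‖t - t₀‖ ≤ r := c1.s_eq ▸ c2
    rw [c7]
    linarith [norm_le_norm_sub_add t t₀]

end Vale.Agent.P284Z.H
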