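import Vale.Agent.P284Z.H.Cj
import Vale.Agent.P284Z.H.Grp
import Vale.Agent.P284Z.H.Tube

/-!
# P284Z, block H: the block from the four remaining steps
-/

namespace Vale.Agent.P284Z.H

theorem stH_pre (hE : StEq) (hA : StAe) (hR : StRei) (hG : StGraph) : StH :=
  stH_of (ls key (cj key)) hA (grp hE hA hG) hR

end Vale.Agent.P284Z.H
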